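import Vale.Agent.P042PN.Psi

set_option autoImplicit false

/-!
P042, primes: the prime number theorem for progressions with a power saving error.
-/

namespace Vale.Agent.P042PN

open Complex Finset ArithmeticFunction Vale.Agent.P005Z Vale.Agent.P005Z.PT

theorem sum_log_primeFactors {q : ℕ} (hq : 1 ≤ q) :
    ∑ p ∈ q.primeFactors, Real.log p ≤ Real.log q := by
  rw [← Real.log_prod fun p hp => by
    exact_mod_cast (Nat.prime_of_mem_primeFactors hp).ne_zero, ← Nat.cast_prod]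
  refine Real.log_le_log ?_ ?_
  · exact_mod_cast Finset.prod_pos fun p hp => (Nat.prime_of_mem_primeFactors hp).pos
  · exact_mod_cast Nat.le_of_dvd hq (Nat.prod_primeFactors_dvd q)

/-- the primes which divide the modulus -/
theorem sum_lp_not_coprime {q : ℕ} (hq : 1 ≤ q) (S : Finset ℕ) :
    ∑ n ∈ S.filter (fun n => ¬ Nat.Coprime n q), lp n ≤ Real.log q := by
  classical
  refine le_trans ?_ (sum_log_primeFactors hq)
  have h1 : ∑ n ∈ S.filter (fun n => ¬ Nat.Coprime n q), lp n =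
      ∑ n ∈ (S.filter (fun n => ¬ Nat.Coprime n q)).filter Nat.Prime, Real.log n := by
    rw [sum_filter (p := Nat.Prime)]
    rfl
  rw [h1]
  refine sum_le_sum_of_subset_of_nonneg (fun p hp => ?_) fun p _ _ => Real.log_natCast_nonneg p
  simp only [mem_filter] at hp
  refine Nat.mem_primeFactors.2 ⟨hp.2, ?_, by omega⟩
  by_contra hd
  exact hp.1.2 (hp.2.coprime_iff_not_dvd.2 hd)

theorem principal_lp {q : ℕ} [NeZero q] (S : Finset ℕ) :
    ‖∑ n ∈ S, (1 : DirichletCharacter ℂ q) n * (lp n : ℝ) - ∑ n ∈ S, ((lp n : ℝ) : ℂ)‖ ≤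
      Real.log q := by
  classical
  rw [← sum_sub_distrib]
  refine (norm_sum_le_of_le _ (n := fun n => if ¬ Nat.Coprime n q then lp n else 0)
    fun n _ => ?_).trans ?_
  · by_cases hd : Nat.Coprime n q
    · rw [MulChar.one_apply ((ZMod.isUnit_iff_coprime _ _).mpr hd)]
      simp [hd]
    · rw [MulChar.map_nonunit _ (by rwa [ZMod.isUnit_iff_coprime]), if_pos hd, zero_mul, zero_sub,
        norm_neg, Complex.norm_real, Real.norm_of_nonneg (lp_nonneg n)]
  · rw [← sum_filter]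
    exact sum_lp_not_coprime NeZero.one_le S

/-- primes in a unit class of `ZMod q` -/
theorem theta_zmod (h : QRH) {q : ℕ} [NeZero q] {a : ZMod q} (hu : IsUnit a) {y : ℕ}
    (hy : 1 ≤ y) : |∑ n ∈ (Icc 1 y).filter (fun n : ℕ => (n : ZMod q) = a), lp n - y / q.totient| ≤
      cN * (1 + Real.log q) * (y : ℝ) ^ (95 / 96 : ℝ) := by
  classical
  have hφ : (1 : ℝ) ≤ q.totient := by exact_mod_cast Nat.totient_pos.mpr (NeZero.pos q)
  have hφc : (q.totient : ℂ) ≠ 0 := by exact_mod_cast (Nat.totient_pos.mpr (NeZero.pos q)).ne'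
  have e1 : (q.totient : ℂ) * ∑ n ∈ (Icc 1 y).filter (fun n : ℕ => (n : ZMod q) = a),
      ((lp n : ℝ) : ℂ) =
      ∑ χ : DirichletCharacter ℂ q, χ a⁻¹ * ∑ n ∈ Icc 1 y, χ n * (lp n : ℝ) := by
    simp only [mul_sum, ← mul_assoc]
    rw [sum_comm, sum_filter]
    refine sum_congr rfl fun p _ => ?_
    rw [← sum_mul, DirichletCharacter.sum_char_inv_mul_char_eq ℂ hu]
    simp only [eq_comm (a := a)]
    split_ifs <;> simp
  have hu' : IsUnit a⁻¹ := IsUnit.of_mul_eq_one _ (ZMod.inv_mul_of_unit _ hu)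
  rw [← add_sum_erase _ _ (mem_univ 1), MulChar.one_apply hu', one_mul] at e1
  have e2 : ∑ n ∈ (Icc 1 y).filter (fun n : ℕ => (n : ZMod q) = a), ((lp n : ℝ) : ℂ) -
      (y : ℂ) / q.totient =
      ((∑ n ∈ Icc 1 y, (1 : DirichletCharacter ℂ q) n * (lp n : ℝ) -
        ∑ n ∈ Icc 1 y, ((lp n : ℝ) : ℂ)) + (∑ n ∈ Icc 1 y, ((lp n : ℝ) : ℂ) - y) +
        ∑ χ ∈ univ.erase (1 : DirichletCharacter ℂ q),
          χ a⁻¹ * ∑ n ∈ Icc 1 y, χ n * (lp n : ℝ)) / q.totient := by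
    rw [sub_add_sub_cancel, sub_add_eq_add_sub, ← e1]
    field_simp
  have hcard : ((univ.erase (1 : DirichletCharacter ℂ q)).card : ℝ) = q.totient - 1 := by
    rw [card_erase_of_mem (mem_univ _), card_univ, ← Nat.card_eq_fintype_card,
      DirichletCharacter.card_eq_totient_of_hasEnoughRootsOfUnity ℂ q,
      Nat.cast_sub (by exact_mod_cast hφ), Nat.cast_one]
  have b1 := principal_lp (q := q) (Icc 1 y)
  have b3 : ‖∑ n ∈ Icc 1 y, ((lp n : ℝ) : ℂ) - y‖ ≤ (cN - 198) * (y : ℝ) ^ (95 / 96 : ℝ) := by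
    rw [← ofReal_sum, ← ofReal_natCast, ← ofReal_sub, Complex.norm_real, Real.norm_eq_abs]
    exact theta_one h hy
  have hl : 0 ≤ Real.log q := Real.log_natCast_nonneg q
  have hv : 1 ≤ (y : ℝ) ^ (95 / 96 : ℝ) := Real.one_le_rpow (by exact_mod_cast hy) (by norm_num)
  have hN := cN_ge
  set v := (y : ℝ) ^ (95 / 96 : ℝ)
  have b2 : ‖∑ χ ∈ univ.erase (1 : DirichletCharacter ℂ q),
      χ a⁻¹ * ∑ n ∈ Icc 1 y, χ n * (lp n : ℝ)‖ ≤
      (q.totient - 1) * (cN * (1 + Real.log q) * v) := by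
    refine (norm_sum_le_of_le _ (n := fun _ => cN * (1 + Real.log q) * v) fun χ hχ => ?_).trans ?_
    · rw [norm_mul]
      refine (mul_le_of_le_one_left (norm_nonneg _) (DirichletCharacter.norm_le_one χ _)).trans
        ((theta_char h χ (ne_of_mem_erase hχ) hy).trans ?_)
      gcongr
      linarith
    · rw [sum_const, nsmul_eq_mul, hcard]
  have e3 : ((∑ n ∈ (Icc 1 y).filter (fun n : ℕ => (n : ZMod q) = a), lp n - y / q.totient : ℝ) :
      ℂ) = ∑ n ∈ (Icc 1 y).filter (fun n : ℕ => (n : ZMod q) = a), ((lp n : ℝ) : ℂ) -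
      (y : ℂ) / q.totient := by
    push_cast
    rfl
  rw [← Real.norm_eq_abs, ← Complex.norm_real, e3, e2, norm_div, Complex.norm_natCast,
    div_le_iff₀ (by linarith)]
  refine (norm_add_le _ _).trans ((add_le_add ((norm_add_le _ _).trans (add_le_add b1 b3)) b2).trans
    ?_)
  have h5 : Real.log q * 1 ≤ Real.log q * (cN * v) :=
    mul_le_mul_of_nonneg_left (by nlinarith) hl
  nlinarith

/-- **primes in progressions**, integer classes -/
theorem theta_ap (h : QRH) {M : ℕ} (hM : 1 ≤ M) {a : ℤ} (ha : IsCoprime a (M : ℤ)) (y : ℕ) :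
    |∑ n ∈ (Icc 1 y).filter (fun n : ℕ => (n : ℤ) ≡ a [ZMOD M]), lp n - y / M.totient| ≤
      cN * (1 + Real.log M) * (y : ℝ) ^ (95 / 96 : ℝ) := by
  classical
  rcases Nat.eq_zero_or_pos y with rfl | hy
  · simp
  have : NeZero M := ⟨by omega⟩
  have hu : IsUnit (a : ZMod M) := by
    obtain ⟨s, t, hst⟩ := ha
    refine IsUnit.of_mul_eq_one_right (s : ZMod M) ?_
    have h1 := congrArg (Int.cast : ℤ → ZMod M) hst
    simpa using h1
  have h1 := theta_zmod h hu hy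
  have e : (Icc 1 y).filter (fun n : ℕ => (n : ℤ) ≡ a [ZMOD M]) =
      (Icc 1 y).filter (fun n : ℕ => (n : ZMod M) = (a : ZMod M)) := by
    refine filter_congr fun n _ => ?_
    rw [← ZMod.intCast_eq_intCast_iff, Int.cast_natCast]
  rw [e]
  exact h1

/-- the same with the von Mangoldt function -/
theorem psi_ap (h : QRH) {M : ℕ} (hM : 1 ≤ M) {a : ℤ} (ha : IsCoprime a (M : ℤ)) (y : ℕ) :
    |∑ n ∈ (Icc 1 y).filter (fun n : ℕ => (n : ℤ) ≡ a [ZMOD M]), Λ n - y / M.totient| ≤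
      (cN + 8) * (1 + Real.log M) * (y : ℝ) ^ (95 / 96 : ℝ) := by
  classical
  rcases Nat.eq_zero_or_pos y with rfl | hy
  · simp
  have h1 := theta_ap h hM ha y
  have h2 := sum_vm_sub_lp hy
  have h3 : ∑ n ∈ (Icc 1 y).filter (fun n : ℕ => (n : ℤ) ≡ a [ZMOD M]), (Λ n - lp n) ≤
      ∑ n ∈ Icc 1 y, (Λ n - lp n) :=
    sum_le_sum_of_subset_of_nonneg (filter_subset _ _) fun n _ _ => sub_nonneg.2 (lp_le_vm n)
  have h4 : 0 ≤ ∑ n ∈ (Icc 1 y).filter (fun n : ℕ => (n : ℤ) ≡ a [ZMOD M]), (Λ n - lp n) :=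
    sum_nonneg fun n _ => sub_nonneg.2 (lp_le_vm n)
  rw [sum_sub_distrib] at h3 h4
  have hl : 0 ≤ Real.log M := Real.log_natCast_nonneg M
  have h5 : (y : ℝ) ^ (95 / 96 : ℝ) ≤ (1 + Real.log M) * (y : ℝ) ^ (95 / 96 : ℝ) :=
    le_mul_of_one_le_left (by positivity) (by linarith)
  rw [abs_le] at h1 ⊢
  constructor <;> nlinarith [h1.1, h1.2]

/-- classes which are not coprime to the modulus -/
theorem theta_ap_not {M : ℕ} (hM : 1 ≤ M) {a : ℤ} (ha : ¬ IsCoprime a (M : ℤ)) (S : Finset ℕ) :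
    ∑ n ∈ S.filter (fun n : ℕ => (n : ℤ) ≡ a [ZMOD M]), lp n ≤ Real.log M := by
  classical
  refine le_trans (sum_le_sum_of_subset_of_nonneg (fun n hn => ?_) fun n _ _ => lp_nonneg n)
    (sum_lp_not_coprime hM S)
  rw [mem_filter] at hn ⊢
  refine ⟨hn.1, fun hc => ha ?_⟩
  obtain ⟨t, ht⟩ := hn.2.dvd
  have e : a = n + M * t := by linarith
  rw [e]
  exact (Nat.isCoprime_iff_coprime.2 hc).add_mul_left_left t

end Vale.Agent.P042PN
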